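import Vale.Agent.P209.Bdl.B1
import Vale.Agent.P209.H564.Chart

/-!
# P209, H639: the big ball (row M3C)

The closed ball of capacity `r0` is embedded into the part `{π |Z 4|² > R - r0'}` of the complement
of the hyperplane `Z 0 + i Z 2 = 0` in `ℂP^n`, `n = k + 4`, for every `r0 < r0' < R`.
-/

open scoped ContDiff
open Complex

namespace Vale.Agent.P209.H639

open Vale.Agent.P209 Vale.Agent.P209.H564

/-- Insertion of a real slot does not change the pull-back of the standard form. -/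
lemma insertNth_hasFDerivAt {E : Type*} [NormedAddCommGroup E] [NormedSpace ℝ E] {n : ℕ}
    (p : Fin (n + 1)) {g : E → Fin n → ℂ} {ρ : E → ℝ} {x : E} (hg : DifferentiableAt ℝ g x)
    (hρ : DifferentiableAt ℝ ρ x) :
    DifferentiableAt ℝ (fun y => (p.insertNth ((ρ y : ℝ) : ℂ) (g y) : Fin (n + 1) → ℂ)) x ∧
    ∀ v, (fderiv ℝ (fun y => (p.insertNth ((ρ y : ℝ) : ℂ) (g y) : Fin (n + 1) → ℂ)) x v) p =
        ((fderiv ℝ ρ x v : ℝ) : ℂ) ∧
      ∀ i, (fderiv ℝ (fun y => (p.insertNth ((ρ y : ℝ) : ℂ) (g y) : Fin (n + 1) → ℂ)) x v)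
        (p.succAbove i) = fderiv ℝ g x v i := by
  have h1 : HasFDerivAt (fun y => ((ρ y : ℝ) : ℂ)) (Complex.ofRealCLM.comp (fderiv ℝ ρ x)) x :=
    Complex.ofRealCLM.hasFDerivAt.comp x hρ.hasFDerivAt
  have h2 : ∀ i, HasFDerivAt (fun y => g y i)
      ((ContinuousLinearMap.proj (R := ℝ) (φ := fun _ : Fin n => ℂ) i).comp (fderiv ℝ g x)) x :=
    fun i => hasFDerivAt_pi'.1 hg.hasFDerivAt i
  have hd : DifferentiableAt ℝ (fun y => (p.insertNth ((ρ y : ℝ) : ℂ) (g y) : Fin (n + 1) → ℂ)) x := by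
    rw [differentiableAt_pi]
    intro j
    refine Fin.succAboveCases p ?_ (fun i => ?_) j
    · simp only [Fin.insertNth_apply_same]
      exact h1.differentiableAt
    · simp only [Fin.insertNth_apply_succAbove]
      exact (h2 i).differentiableAt
  refine ⟨hd, fun v => ⟨?_, fun i => ?_⟩⟩
  · have h3 := hasFDerivAt_pi'.1 hd.hasFDerivAt p
    simp only [Fin.insertNth_apply_same] at h3
    have h4 := congrArg (fun L : E →L[ℝ] ℂ => L v) (h3.unique h1)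
    exact h4
  · have h3 := hasFDerivAt_pi'.1 hd.hasFDerivAt (p.succAbove i)
    simp only [Fin.insertNth_apply_succAbove] at h3
    have h4 := congrArg (fun L : E →L[ℝ] ℂ => L v) (h3.unique (h2 i))
    exact h4

lemma insertNth_omega {E : Type*} [NormedAddCommGroup E] [NormedSpace ℝ E] {n : ℕ}
    (p : Fin (n + 1)) {g : E → Fin n → ℂ} {ρ : E → ℝ} {x : E} (hg : DifferentiableAt ℝ g x)
    (hρ : DifferentiableAt ℝ ρ x) (v w : E) :
    omega (fderiv ℝ (fun y => (p.insertNth ((ρ y : ℝ) : ℂ) (g y) : Fin (n + 1) → ℂ)) x v)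
      (fderiv ℝ (fun y => (p.insertNth ((ρ y : ℝ) : ℂ) (g y) : Fin (n + 1) → ℂ)) x w) =
      omega (fderiv ℝ g x v) (fderiv ℝ g x w) := by
  obtain ⟨-, h⟩ := insertNth_hasFDerivAt p hg hρ
  unfold omega
  rw [Fin.sum_univ_succAbove _ p]
  simp only [(h v).1, (h w).1, (h v).2, (h w).2, Complex.ofReal_re, Complex.ofReal_im, mul_zero,
    zero_mul, sub_zero, zero_add]

/-- a plane map in the slot `0` -/
noncomputable def upd {n : ℕ} (ψ : ℂ → ℂ) (w : Fin (n + 1) → ℂ) : Fin (n + 1) → ℂ :=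
  Function.update w 0 (ψ (w 0))

lemma upd_zero {n : ℕ} (ψ : ℂ → ℂ) (w : Fin (n + 1) → ℂ) : upd ψ w 0 = ψ (w 0) := by
  unfold upd; simp

lemma upd_succ {n : ℕ} (ψ : ℂ → ℂ) (w : Fin (n + 1) → ℂ) (j : Fin n) :
    upd ψ w j.succ = w j.succ := by
  unfold upd; simp [Fin.succ_ne_zero]

lemma upd_contDiff {n : ℕ} {ψ : ℂ → ℂ} (h : ContDiff ℝ ∞ ψ) :
    ContDiff ℝ ∞ (upd (n := n) ψ) := by
  rw [contDiff_pi]
  intro j
  refine Fin.cases ?_ (fun j => ?_) j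
  · simp only [upd_zero]
    exact h.comp (contDiff_apply ℝ ℂ (0 : Fin (n + 1)))
  · simp only [upd_succ]
    exact contDiff_apply ℝ ℂ j.succ

lemma upd_omega {n : ℕ} {ψ : ℂ → ℂ} (h : Sympl1 ψ) (x v w : Fin (n + 1) → ℂ) :
    omega (fderiv ℝ (upd ψ) x v) (fderiv ℝ (upd ψ) x w) = omega v w := by
  have hd : DifferentiableAt ℝ (upd (n := n) ψ) x :=
    (upd_contDiff h.smooth).contDiffAt.differentiableAt (by simp)
  have hψ : DifferentiableAt ℝ ψ (x 0) := h.smooth.contDiffAt.differentiableAt (by simp)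
  have h0 : ∀ v, fderiv ℝ (upd ψ) x v 0 = fderiv ℝ ψ (x 0) (v 0) := by
    intro v
    have h3 := hasFDerivAt_pi'.1 hd.hasFDerivAt 0
    simp only [upd_zero] at h3
    have h4 : HasFDerivAt (fun y : Fin (n + 1) → ℂ => ψ (y 0)) ((fderiv ℝ ψ (x 0)).comp
        (ContinuousLinearMap.proj (R := ℝ) (φ := fun _ : Fin (n + 1) => ℂ) 0)) x :=
      HasFDerivAt.comp (g := ψ) x hψ.hasFDerivAt (hasFDerivAt_apply 0 x)
    exact congrArg (fun L : (Fin (n + 1) → ℂ) →L[ℝ] ℂ => L v) (h3.unique h4)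
  have hs : ∀ v (j : Fin n), fderiv ℝ (upd ψ) x v j.succ = v j.succ := by
    intro v j
    have h3 := hasFDerivAt_pi'.1 hd.hasFDerivAt j.succ
    simp only [upd_succ] at h3
    exact congrArg (fun L : (Fin (n + 1) → ℂ) →L[ℝ] ℂ => L v) (h3.unique (hasFDerivAt_apply j.succ x))
  unfold omega
  rw [Fin.sum_univ_succ, Fin.sum_univ_succ]
  simp only [h0, hs]
  have := h.sympl (x 0) (v 0) (w 0)
  unfold om1 at this
  rw [this]

/-- the index of the vertex of the big ball -/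
def q4 (k : ℕ) : Fin (k + 1 + 4) := (0 : Fin (k + 1)).succ.succ.succ.succ

lemma q4_ne_zero (k : ℕ) : q4 k ≠ 0 := Fin.succ_ne_zero _

lemma q4_val (k : ℕ) : ((q4 k : Fin (k + 1 + 4)) : ℕ) = 4 := by
  unfold q4
  simp only [Fin.val_succ, Fin.val_zero]

lemma q4_ne_two (k : ℕ) : q4 k ≠ 2 := by
  intro h
  have h1 : ((q4 k : Fin (k + 1 + 4)) : ℕ) = ((2 : Fin (k + 1 + 4)) : ℕ) := congrArg Fin.val h
  rw [q4_val, val_two'] at h1
  omega

/-- the lift of the big ball to the sphere, in unitary coordinates -/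
noncomputable def bigY (k : ℕ) (R : ℝ) (ψ : ℂ → ℂ) (w : Fin (k + 1 + 3) → ℂ) :
    Fin (k + 1 + 4) → ℂ :=
  (q4 k).insertNth (((Real.sqrt (R / Real.pi - ∑ j, ‖upd ψ w j‖ ^ 2) : ℝ)) : ℂ) (upd ψ w)

lemma bigY_q4 (k : ℕ) (R : ℝ) (ψ : ℂ → ℂ) (w : Fin (k + 1 + 3) → ℂ) :
    bigY k R ψ w (q4 k) = ((Real.sqrt (R / Real.pi - ∑ j, ‖upd ψ w j‖ ^ 2) : ℝ) : ℂ) := by
  unfold bigY; exact Fin.insertNth_apply_same _ _ _

lemma bigY_succAbove (k : ℕ) (R : ℝ) (ψ : ℂ → ℂ) (w : Fin (k + 1 + 3) → ℂ) (i : Fin (k + 1 + 3)) :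
    bigY k R ψ w ((q4 k).succAbove i) = upd ψ w i := by
  unfold bigY; exact Fin.insertNth_apply_succAbove _ _ _ _

lemma bigY_zero (k : ℕ) (R : ℝ) (ψ : ℂ → ℂ) (w : Fin (k + 1 + 3) → ℂ) :
    bigY k R ψ w 0 = ψ (w 0) := by
  have h : (q4 k).succAbove (0 : Fin (k + 1 + 3)) = 0 := Fin.succAbove_ne_zero_zero (q4_ne_zero k)
  rw [← upd_zero ψ w, ← bigY_succAbove k R ψ w 0, h]

lemma bigY_sum (k : ℕ) (R : ℝ) (ψ : ℂ → ℂ) (w : Fin (k + 1 + 3) → ℂ)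
    (h : 0 ≤ R / Real.pi - ∑ j, ‖upd ψ w j‖ ^ 2) :
    ∑ j, ‖bigY k R ψ w j‖ ^ 2 = R / Real.pi := by
  have h1 : ∑ j, ‖bigY k R ψ w j‖ ^ 2 = ‖bigY k R ψ w (q4 k)‖ ^ 2 +
      ∑ i, ‖bigY k R ψ w ((q4 k).succAbove i)‖ ^ 2 :=
    Fin.sum_univ_succAbove (fun j => ‖bigY k R ψ w j‖ ^ 2) (q4 k)
  rw [h1, bigY_q4]
  simp only [bigY_succAbove]
  rw [Complex.norm_real, Real.norm_eq_abs, sq_abs, Real.sq_sqrt h]
  ring

lemma upd_normSq_contDiff (k : ℕ) {ψ : ℂ → ℂ} (hψ : ContDiff ℝ ∞ ψ) :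
    ContDiff ℝ ∞ (fun w : Fin (k + 1 + 3) → ℂ => ∑ j, ‖upd ψ w j‖ ^ 2) := by
  refine ContDiff.sum fun j _ => ?_
  have h1 : ContDiff ℝ ∞ (fun w : Fin (k + 1 + 3) → ℂ => upd ψ w j) :=
    (contDiff_pi.1 (upd_contDiff hψ)) j
  exact h1.norm_sq ℝ

lemma rho_contDiffAt (k : ℕ) (R : ℝ) {ψ : ℂ → ℂ} (hψ : ContDiff ℝ ∞ ψ) {w : Fin (k + 1 + 3) → ℂ}
    (h : 0 < R / Real.pi - ∑ j, ‖upd ψ w j‖ ^ 2) :
    ContDiffAt ℝ ∞ (fun w : Fin (k + 1 + 3) → ℂ => Real.sqrt (R / Real.pi - ∑ j, ‖upd ψ w j‖ ^ 2))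
      w :=
  ContDiffAt.sqrt (contDiffAt_const.sub (upd_normSq_contDiff k hψ).contDiffAt) h.ne'

lemma bigY_contDiffAt (k : ℕ) (R : ℝ) {ψ : ℂ → ℂ} (hψ : ContDiff ℝ ∞ ψ)
    {w : Fin (k + 1 + 3) → ℂ} (h : 0 < R / Real.pi - ∑ j, ‖upd ψ w j‖ ^ 2) :
    ContDiffAt ℝ ∞ (bigY k R ψ) w := by
  rw [contDiffAt_pi]
  intro j
  refine Fin.succAboveCases (q4 k) ?_ (fun i => ?_) j
  · simp only [bigY_q4]
    exact Complex.ofRealCLM.contDiff.contDiffAt.comp w (rho_contDiffAt k R hψ h)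
  · simp only [bigY_succAbove]
    exact ((contDiff_pi.1 (upd_contDiff hψ)) i).contDiffAt

theorem exists_big (k : ℕ) (R r0 r0' : ℝ) (_h0 : 0 < r0) (h1 : r0 < r0') (h2 : r0' < R) :
    ∃ f : (Fin (k + 1 + 3) → ℂ) → (Fin (k + 1 + 3) → ℂ), IsSymplecticEmbedding r0 f ∧
      ∀ z ∈ closedBall (k + 1 + 3) r0, ∃ Z : Fin (k + 1 + 4) → ℂ, hyp Z ≠ 0 ∧
        Real.pi * ∑ j, ‖Z j‖ ^ 2 = R ∧ chart (k + 1) Z = f z ∧
        R - r0' < Real.pi * ‖Z (0 : Fin (k + 1)).succ.succ.succ.succ‖ ^ 2 := by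
  have hpi := Real.pi_pos
  obtain ⟨r1, hr1⟩ : ∃ r1 : ℝ, r1 = (r0 + r0') / 2 := ⟨_, rfl⟩
  have h3 : r0 < r1 := by rw [hr1]; linarith
  have h4 : r1 < r0' := by rw [hr1]; linarith
  obtain ⟨a, ha⟩ : ∃ a : ℝ, a = Real.sqrt (r1 / Real.pi) := ⟨_, rfl⟩
  have ha0 : 0 ≤ a := by rw [ha]; exact Real.sqrt_nonneg _
  obtain ⟨ε, hε⟩ : ∃ ε : ℝ, ε = min 1 ((r0' - r1) / (Real.pi * (2 * a + 1))) := ⟨_, rfl⟩
  have hε0 : 0 < ε := by
    rw [hε]
    exact lt_min one_pos (div_pos (by linarith) (by positivity))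
  have hε1 : ε ≤ 1 := by rw [hε]; exact min_le_left _ _
  have hε2 : Real.pi * (2 * ε * a + ε ^ 2) ≤ r0' - r1 := by
    have h5 : ε ≤ (r0' - r1) / (Real.pi * (2 * a + 1)) := by rw [hε]; exact min_le_right _ _
    rw [le_div_iff₀ (by positivity)] at h5
    have h6 : ε ^ 2 ≤ ε := by nlinarith
    have h7 : Real.pi * ε ^ 2 ≤ Real.pi * ε := mul_le_mul_of_nonneg_left h6 hpi.le
    linarith
  obtain ⟨ψ, hψ, hψn, hψ0⟩ := exists_off_origin a ε hε0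
  -- the estimate on the neighbourhood
  have hest : ∀ w ∈ openBall (k + 1 + 3) r1, ‖w 0‖ ≤ a ∧
      Real.pi * ∑ j, ‖upd ψ w j‖ ^ 2 < r0' := by
    intro w hw
    have hw' : Real.pi * ∑ j, ‖w j‖ ^ 2 < r1 := hw
    rw [Fin.sum_univ_succ] at hw'
    have hs0 : 0 ≤ ∑ i : Fin (k + 1 + 2), ‖w i.succ‖ ^ 2 :=
      Finset.sum_nonneg fun i _ => by positivity
    have h5 : ‖w 0‖ ≤ a := by
      rw [ha]
      refine Real.le_sqrt_of_sq_le ?_
      rw [le_div_iff₀ hpi]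
      nlinarith [mul_nonneg hpi.le hs0]
    refine ⟨h5, ?_⟩
    rw [Fin.sum_univ_succ, upd_zero]
    simp only [upd_succ]
    have h6 : ‖ψ (w 0)‖ ^ 2 ≤ (‖w 0‖ + ε) ^ 2 := by
      have := hψn (w 0)
      gcongr
    have h7 : (‖w 0‖ + ε) ^ 2 ≤ ‖w 0‖ ^ 2 + (2 * ε * a + ε ^ 2) := by nlinarith
    have h8 : Real.pi * ‖ψ (w 0)‖ ^ 2 ≤ Real.pi * (‖w 0‖ ^ 2 + (2 * ε * a + ε ^ 2)) :=
      mul_le_mul_of_nonneg_left (h6.trans h7) hpi.le
    linarith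
  have hpos : ∀ w ∈ openBall (k + 1 + 3) r1, 0 < R / Real.pi - ∑ j, ‖upd ψ w j‖ ^ 2 := by
    intro w hw
    have h5 := (hest w hw).2
    rw [sub_pos, lt_div_iff₀ hpi]
    linarith
  have hne : ∀ w ∈ openBall (k + 1 + 3) r1, bigY k R ψ w 0 ≠ 0 := by
    intro w hw
    rw [bigY_zero]
    exact hψ0 _ (hest w hw).1
  have hopen : IsOpen (openBall (k + 1 + 3) r1) := by
    have hc : Continuous (fun z : Fin (k + 1 + 3) → ℂ => Real.pi * ∑ j, ‖z j‖ ^ 2) := by fun_prop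
    exact hc.isOpen_preimage _ isOpen_Iio
  have hsm : ContDiffOn ℝ ∞ (fun w => proj0 (bigY k R ψ w)) (openBall (k + 1 + 3) r1) := by
    intro w hw
    have h5 : ContDiffAt ℝ ∞ (fun w => proj0 (bigY k R ψ w)) w :=
      (proj0_contDiffAt (hne w hw)).comp w (bigY_contDiffAt k R hψ.smooth (hpos w hw))
    exact h5.contDiffWithinAt
  have hsy : ∀ w ∈ openBall (k + 1 + 3) r1, ∀ v v' : Fin (k + 1 + 3) → ℂ,
      omega (fderiv ℝ (fun w => proj0 (bigY k R ψ w)) w v)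
        (fderiv ℝ (fun w => proj0 (bigY k R ψ w)) w v') = omega v v' := by
    intro w hw v v'
    have h5 : DifferentiableAt ℝ (bigY k R ψ) w :=
      (bigY_contDiffAt k R hψ.smooth (hpos w hw)).differentiableAt (by simp)
    have h6 : ∀ᶠ y in nhds w, ∑ j, ‖bigY k R ψ y j‖ ^ 2 = R / Real.pi := by
      filter_upwards [hopen.mem_nhds hw] with y hy
      exact bigY_sum k R ψ y (hpos y hy).le
    rw [proj0_comp_omega h5 h6 (hne w hw)]
    have h7 : DifferentiableAt ℝ (upd (n := k + 1 + 2) ψ) w :=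
      (upd_contDiff hψ.smooth).contDiffAt.differentiableAt (by simp)
    have h8 := (rho_contDiffAt k R hψ.smooth (hpos w hw)).differentiableAt (by simp)
    have h9 := insertNth_omega (q4 k) h7 h8 v v'
    have h10 := upd_omega hψ w v v'
    exact h9.trans h10
  have hinj : Set.InjOn (fun w => proj0 (bigY k R ψ w)) (openBall (k + 1 + 3) r1) := by
    intro w hw w' hw' h
    obtain ⟨c, hc1, hc2⟩ := proj0_inj (hne w hw) (hne w' hw')
      (by rw [bigY_sum k R ψ w (hpos w hw).le, bigY_sum k R ψ w' (hpos w' hw').le]) h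
    have h5 := hc2 (q4 k)
    rw [bigY_q4, bigY_q4] at h5
    obtain ⟨s, hs⟩ : ∃ s : ℝ, s = Real.sqrt (R / Real.pi - ∑ j, ‖upd ψ w j‖ ^ 2) := ⟨_, rfl⟩
    obtain ⟨s', hs'⟩ : ∃ s' : ℝ, s' = Real.sqrt (R / Real.pi - ∑ j, ‖upd ψ w' j‖ ^ 2) := ⟨_, rfl⟩
    have hs0 : 0 < s := by rw [hs]; exact Real.sqrt_pos.2 (hpos w hw)
    have hs0' : 0 < s' := by rw [hs']; exact Real.sqrt_pos.2 (hpos w' hw')
    rw [← hs, ← hs'] at h5
    have h6 : s' = s := by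
      have h7 := congrArg (fun z : ℂ => ‖z‖) h5
      simp only [norm_mul, hc1, one_mul, Complex.norm_real, Real.norm_eq_abs, abs_of_pos hs0,
        abs_of_pos hs0'] at h7
      exact h7
    have h7 : c = 1 := by
      rw [h6] at h5
      have h8 : (s : ℂ) ≠ 0 := by exact_mod_cast hs0.ne'
      have h9 : (c - 1) * (s : ℂ) = 0 := by linear_combination -h5
      rcases mul_eq_zero.1 h9 with h | h
      · exact sub_eq_zero.1 h
      · exact absurd h h8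
    have h8 : ∀ i, upd ψ w i = upd ψ w' i := by
      intro i
      have h9 := hc2 ((q4 k).succAbove i)
      rw [bigY_succAbove, bigY_succAbove, h7, one_mul] at h9
      exact h9.symm
    funext i
    refine Fin.cases ?_ (fun i => ?_) i
    · have := h8 0
      rw [upd_zero, upd_zero] at this
      exact hψ.inj this
    · have := h8 i.succ
      rwa [upd_succ, upd_succ] at this
  have hsub : closedBall (k + 1 + 3) r0 ⊆ openBall (k + 1 + 3) r1 := by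
    intro z hz
    have : Real.pi * ∑ j, ‖z j‖ ^ 2 ≤ r0 := hz
    exact lt_of_le_of_lt this h3
  refine ⟨fun w => proj0 (bigY k R ψ w), ⟨openBall (k + 1 + 3) r1, hopen, hsub, hsm,
    isOpenEmbedding_of_sympl hopen hsm hinj hsy, hsy⟩, ?_⟩
  intro z hz
  have hz' := hsub hz
  have hsurj : Function.Surjective (uniL (k + 1)) := by
    have h5 : Function.Injective ((uniL (k + 1) : (Fin (k + 1 + 4) → ℂ) →L[ℝ] (Fin (k + 1 + 4) → ℂ)) :
        (Fin (k + 1 + 4) → ℂ) →ₗ[ℝ] (Fin (k + 1 + 4) → ℂ)) := fun Z Z' h => uniL_inj (k + 1) h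
    exact LinearMap.injective_iff_surjective.1 h5
  obtain ⟨Z, hZ⟩ := hsurj (bigY k R ψ z)
  refine ⟨Z, ?_, ?_, ?_, ?_⟩
  · intro h5
    have h6 := hne z hz'
    rw [← hZ, uniL_zero] at h6
    apply h6
    show _ * (Z 0 + I * Z 2) = 0
    have h7 : Z 0 + I * Z 2 = 0 := h5
    rw [h7, mul_zero]
  · rw [← uniL_normSq, hZ, bigY_sum k R ψ z (hpos z hz').le]
    field_simp
  · show proj0 (uniL (k + 1) Z) = proj0 (bigY k R ψ z)
    rw [hZ]
  · have h5 : Z (q4 k) = bigY k R ψ z (q4 k) := by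
      rw [← hZ, uniL_of_ne (k + 1) Z (q4_ne_zero k) (q4_ne_two k)]
    show R - r0' < Real.pi * ‖Z (q4 k)‖ ^ 2
    rw [h5, bigY_q4, Complex.norm_real, Real.norm_eq_abs, sq_abs, Real.sq_sqrt (hpos z hz').le]
    have h6 := (hest z hz').2
    have h7 : Real.pi * (R / Real.pi - ∑ j, ‖upd ψ z j‖ ^ 2) =
        R - Real.pi * ∑ j, ‖upd ψ z j‖ ^ 2 := by field_simp
    rw [h7]
    linarith

end Vale.Agent.P209.H639
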